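import Vale.Agent.P043.T2.Defs

/-! # P043 in the plane: data of the finite gadget and its sub-statements -/

namespace Vale.Agent.P043.T2

/-- kind codes of the layers `(k', l')`: `0..6` = Q0_q, `7..13` = Q1_q, `14` = P33, `15` = V0b,
`16` = V1b -/
def tab (l k : ℕ) : ℕ :=
  (([[8, 14, 15, 13, 16], [15, 14, 8, 9, 16], [16, 0, 15, 14, 12], [15, 14, 16, 10, 9],
    [2, 2, 0, 7, 1], [0, 16, 4, 14, 15], [6, 6, 4, 11, 8]] : List (List ℕ)).getD l []).getD k 0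

/-- class of a cell: `true` = class 1 -/
def cc (a b : ℕ) : Bool := (a == 0 && b == 0) || (a == 1 && b == 1)

/-- windows of class 0 of type `true` in a layer of kind `n` -/
def x2 (n : ℕ) (j : ZMod 9) : Bool :=
  if n < 14 then true else if n = 14 then false else if n = 15 then decide (j.val ≤ 2)
    else decide (1 ≤ j.val ∧ j.val ≤ 3)

/-- positions of class 0 in a layer of kind `n` -/
def d0 (n : ℕ) (h : ZMod 9) (i : ZMod 4) (j : ZMod 9) : Bool :=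
  if n < 14 then
    decide (i.val % 2 = n / 7) && decide (j.val % 3 =
      if 2 * ((h - j).val / 3) + i.val / 2 < n % 7 then (if n / 7 = 0 then 1 else 0) else 2)
  else if n = 15 then decide (i.val % 2 = 1 ∧ j.val = 0)
  else if n = 16 then decide (i.val % 2 = 0 ∧ j.val = 1) else false

/-- positions of class 1 in a layer of kind `n` -/
def d1 (n : ℕ) (h : ZMod 4) (i : ZMod 4) (j : ZMod 9) : Bool :=
  if n = 14 then decide (i.val % 2 = 0 ∧ j.val % 3 = 0 ∧ (h - i).val / 2 = 0) ||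
      decide (i.val % 2 = 1 ∧ j.val % 3 = 1 ∧ (h - i).val / 2 = 1)
  else if n = 15 then decide (i.val % 2 = 0 ∧ (j.val = 3 ∨ j.val = 6))
  else if n = 16 then decide (i.val % 2 = 1 ∧ (j.val = 4 ∨ j.val = 7)) else false

/-- number of positions of a cell in a layer of kind `n` -/
def kc (n a b : ℕ) : ℕ :=
  if n < 14 then
    (if a = n / 7 then
      (if b = (if n / 7 = 0 then 1 else 0) then n % 7 else if b = 2 then 6 - n % 7 else 0) else 0)
  else if n = 14 then (if cc a b then 3 else 0)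
  else if n = 15 then (if b = 0 then (if a = 0 then 4 else 2) else 0)
  else if n = 16 then (if b = 1 then (if a = 1 then 4 else 2) else 0) else 0

/-- class 0 cells: residues mod 5 of `k` -/
def kb0 (a b f : ℕ) : ℕ :=
  (if a = 0 then [0, 0, 1, 1, 2, 2, 4] else [0, 2, 3, 3, 3, 4, 4] : List ℕ).getD f 0

/-- class 0 cells: residues mod 7 of `l` -/
def lb0 (a b f s : ℕ) : ℕ :=
  ((if a = 0 then (if b = 1 then
      [[2, 2, 4, 4, 6], [6, 6, 6, 6, 6], [4, 4, 5, 5, 6], [6, 6, 6, 6, 6], [3, 3, 5, 5, 5],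
        [5, 6, 6, 6, 6], [0, 0, 1, 1, 4]]
      else [[4, 4, 4, 4, 5], [5, 5, 5, 5, 5], [2, 2, 2, 2, 2], [2, 4, 4, 4, 4], [4, 4, 4, 4, 4],
        [4, 5, 5, 6, 6], [4, 4, 4, 4, 4]])
    else (if b = 0 then
      [[0, 1, 1, 3, 3], [0, 0, 1, 2, 2], [0, 0, 0, 0, 0], [0, 1, 1, 3, 3], [3, 6, 6, 6, 6],
        [2, 2, 2, 2, 2], [3, 3, 5, 5, 6]]
      else [[0, 0, 0, 0, 0], [1, 1, 1, 1, 1], [1, 1, 1, 1, 3], [3, 3, 4, 4, 4], [4, 4, 4, 6, 6],
        [2, 3, 3, 3, 3], [6, 6, 6, 6, 6]]) : List (List ℕ)).getD f []).getD s 0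

/-- class 1 cells: residues mod 7 of `l` -/
def lb1 (f : ℕ) : ℕ := ([0, 1, 2, 3, 5] : List ℕ).getD f 0

/-- class 1 cells: residues mod 5 of `k` -/
def kb1 (a f s : ℕ) : ℕ :=
  ((if a = 0 then
      [[1, 1, 1, 2, 2, 2, 2], [0, 0, 0, 0, 1, 1, 1], [2, 2, 2, 2, 3, 3, 3], [0, 0, 0, 0, 1, 1, 1],
        [3, 3, 3, 4, 4, 4, 4]]
    else [[1, 1, 1, 4, 4, 4, 4], [1, 1, 1, 4, 4, 4, 4], [0, 0, 0, 0, 3, 3, 3],
        [1, 1, 1, 2, 2, 2, 2], [1, 1, 1, 1, 3, 3, 3]] : List (List ℕ)).getD f []).getD s 0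

/-- rows of class 0 for a cell `(a,b)` -/
def b0 (a b : ℕ) (h : ZMod 49) (k : ZMod 25) (l : ZMod 49) : Bool :=
  decide (k.val % 5 = kb0 a b ((h - l).val / 7)) &&
    decide (l.val % 7 = lb0 a b ((h - l).val / 7) (k.val / 5))

/-- rows of class 1 for a cell `(a,b)` -/
def b1 (a : ℕ) (h : ZMod 25) (k : ZMod 25) (l : ZMod 49) : Bool :=
  decide (l.val % 7 = lb1 ((h - k).val / 5)) &&
    decide (k.val % 5 = kb1 a ((h - k).val / 5) (l.val / 7))

/-! ## sub-statements of FIN -/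

/-- (FD0) box tilings, class 0, type `true`. -/
def StFD0 : Prop :=
  ∀ (n : Fin 17) (h j : ZMod 9) (i : ZMod 4),
    (x2 n j = true → ∃! q : Fin 2 × Fin 3,
      d0 n (h - (q.2 : ℕ)) (i - (q.1 : ℕ)) (j - (q.2 : ℕ)) = true) ∧
    (x2 n j = false → ∀ q : Fin 2 × Fin 3,
      d0 n (h - (q.2 : ℕ)) (i - (q.1 : ℕ)) (j - (q.2 : ℕ)) = false)

/-- (FD1) box tilings, class 1, type `true`. -/
def StFD1 : Prop :=
  ∀ (n : Fin 17) (h i : ZMod 4) (j : ZMod 9),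
    (x2 n j = false → ∃! q : Fin 2 × Fin 3,
      d1 n (h - (q.1 : ℕ)) (i - (q.1 : ℕ)) (j - (q.2 : ℕ)) = true) ∧
    (x2 n j = true → ∀ q : Fin 2 × Fin 3,
      d1 n (h - (q.1 : ℕ)) (i - (q.1 : ℕ)) (j - (q.2 : ℕ)) = false)

/-- (FD2) positions lie in cells of the right class. -/
def StFD2 : Prop :=
  (∀ (n : Fin 17) (h : ZMod 9) (i : ZMod 4) (j : ZMod 9), d0 n h i j = true →
    cc (i.val % 2) (j.val % 3) = false) ∧
  (∀ (n : Fin 17) (h : ZMod 4) (i : ZMod 4) (j : ZMod 9), d1 n h i j = true →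
    cc (i.val % 2) (j.val % 3) = true)

/-- (FD3) number of positions in a cell. -/
def StFD3 : Prop :=
  (∀ (n : Fin 17) (h : ZMod 9) (a : Fin 2) (b : Fin 3), cc a b = false →
    (Finset.univ.filter fun p : ZMod 4 × ZMod 9 =>
      d0 n h p.1 p.2 = true ∧ p.1.val % 2 = a ∧ p.2.val % 3 = b).card = kc n a b) ∧
  (∀ (n : Fin 17) (h : ZMod 4) (a : Fin 2) (b : Fin 3), cc a b = true →
    (Finset.univ.filter fun p : ZMod 4 × ZMod 9 =>
      d1 n h p.1 p.2 = true ∧ p.1.val % 2 = a ∧ p.2.val % 3 = b).card = kc n a b)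

/-- (FB1) type `false`: boxes `5 x 7`. -/
def StFB1 : Prop :=
  (∀ (a : Fin 2) (b : Fin 3) (h l : ZMod 49) (k : ZMod 25), cc a b = false →
    ∃! q : Fin 5 × Fin 7,
      b0 a b (h - (q.2 : ℕ)) (k - (q.1 : ℕ)) (l - (q.2 : ℕ)) = true) ∧
  (∀ (a : Fin 2) (b : Fin 3) (h k : ZMod 25) (l : ZMod 49), cc a b = true →
    ∃! q : Fin 5 × Fin 7,
      b1 a (h - (q.1 : ℕ)) (k - (q.1 : ℕ)) (l - (q.2 : ℕ)) = true)

/-- (FB2) number of rows of a cell in a layer. -/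
def StFB2 : Prop :=
  (∀ (a : Fin 2) (b : Fin 3) (h : ZMod 49) (k' : Fin 5) (l' : Fin 7), cc a b = false →
    (Finset.univ.filter fun p : ZMod 25 × ZMod 49 =>
      b0 a b h p.1 p.2 = true ∧ p.1.val % 5 = k' ∧ p.2.val % 7 = l').card = kc (tab l' k') a b) ∧
  (∀ (a : Fin 2) (b : Fin 3) (h : ZMod 25) (k' : Fin 5) (l' : Fin 7), cc a b = true →
    (Finset.univ.filter fun p : ZMod 25 × ZMod 49 =>
      b1 a h p.1 p.2 = true ∧ p.1.val % 5 = k' ∧ p.2.val % 7 = l').card = kc (tab l' k') a b)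

/-- (FG0) gluing, class 0 (matching of the two families). `hD` = positions in a layer, `hB` = rows
of a cell. -/
def StFG0 : Prop :=
  StFD0 → StFD2 → StFD3 → StFB1 → StFB2 →
    ∃ A : ZMod 9 → ZMod 49 → K → Prop,
      (∀ (h : ZMod 9) (h' : ZMod 49) (r : K),
        (x2 (tab (r.2.2.2.val % 7) (r.2.2.1.val % 5)) r.2.1 = true →
          ∃! i : Ix, A (h - ((i.2.1 : ℕ) : ZMod 9)) h' (r - kap (row true i))) ∧
        (x2 (tab (r.2.2.2.val % 7) (r.2.2.1.val % 5)) r.2.1 = false →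
          ∀ i : Ix, ¬ A (h - ((i.2.1 : ℕ) : ZMod 9)) h' (r - kap (row true i)))) ∧
      (∀ (h : ZMod 9) (h' : ZMod 49) (r : K),
        (cc (r.1.val % 2) (r.2.1.val % 3) = false →
          ∃! i : Ix, A h (h' - ((i.2.2.2 : ℕ) : ZMod 49)) (r - kap (row false i))) ∧
        (cc (r.1.val % 2) (r.2.1.val % 3) = true →
          ∀ i : Ix, ¬ A h (h' - ((i.2.2.2 : ℕ) : ZMod 49)) (r - kap (row false i))))

/-- (FG1) gluing, class 1. -/
def StFG1 : Prop :=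
  StFD1 → StFD2 → StFD3 → StFB1 → StFB2 →
    ∃ A : ZMod 4 → ZMod 25 → K → Prop,
      (∀ (h : ZMod 4) (h' : ZMod 25) (r : K),
        (x2 (tab (r.2.2.2.val % 7) (r.2.2.1.val % 5)) r.2.1 = false →
          ∃! i : Ix, A (h - ((i.1 : ℕ) : ZMod 4)) h' (r - kap (row true i))) ∧
        (x2 (tab (r.2.2.2.val % 7) (r.2.2.1.val % 5)) r.2.1 = true →
          ∀ i : Ix, ¬ A (h - ((i.1 : ℕ) : ZMod 4)) h' (r - kap (row true i)))) ∧
      (∀ (h : ZMod 4) (h' : ZMod 25) (r : K),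
        (cc (r.1.val % 2) (r.2.1.val % 3) = true →
          ∃! i : Ix, A h (h' - ((i.2.2.1 : ℕ) : ZMod 25)) (r - kap (row false i))) ∧
        (cc (r.1.val % 2) (r.2.1.val % 3) = false →
          ∀ i : Ix, ¬ A h (h' - ((i.2.2.1 : ℕ) : ZMod 25)) (r - kap (row false i))))

end Vale.Agent.P043.T2
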